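import Vale.Agent.P347.Quarter.Gauss

/-! # P347: Mehler averages of a Lipschitz field in `L²` -/

open MeasureTheory ProbabilityTheory Real
open scoped RealInnerProductSpace

namespace Vale.Agent.P347.Quarter.Quad

variable {d : ℕ} {G : Sp d → Sp d} {L : NNReal}

theorem norm_le_lip (hG : LipschitzWith L G) (x : Sp d) : ‖G x‖ ≤ ‖G 0‖ + L * ‖x‖ := by
  have := hG.norm_sub_le x 0
  rw [sub_zero] at this
  linarith [norm_le_insert' (G x) (G 0)]

theorem sqrt_one_sub_le (v : ℝ) : √(1 - v ^ 2) ≤ 1 :=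
  Real.sqrt_le_one.2 (by nlinarith [sq_nonneg v])

theorem integrable_norm : Integrable (fun x : Sp d => ‖x‖) (gd d) := by
  refine ((integrable_const (1:ℝ)).add (integral_norm_sq (ι := Fin d)).1).mono'
    continuous_norm.aestronglyMeasurable (ae_of_all _ fun x => ?_)
  simp only [Real.norm_eq_abs, abs_norm, Pi.add_apply]
  nlinarith [sq_nonneg (‖x‖ - 1)]

theorem norm_shift_le (hG : LipschitzWith L G) {v : ℝ} (hv : 0 ≤ v) (hv1 : v ≤ 1) (x w : Sp d) :
    ‖G (v • x + √(1 - v ^ 2) • w)‖ ≤ ‖G 0‖ + L * (‖x‖ + ‖w‖) := by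
  refine (norm_le_lip hG _).trans ?_
  gcongr
  refine (norm_add_le _ _).trans ?_
  rw [norm_smul, norm_smul, Real.norm_eq_abs, Real.norm_eq_abs, abs_of_nonneg hv,
    abs_of_nonneg (Real.sqrt_nonneg _)]
  nlinarith [norm_nonneg x, norm_nonneg w, sqrt_one_sub_le v]

theorem integrable_bound (A B : ℝ) (x : Sp d) :
    Integrable (fun w : Sp d => A + B * (‖x‖ + ‖w‖)) (gd d) :=
  (integrable_const A).add (((integrable_const ‖x‖).add integrable_norm).const_mul B)

theorem integrable_shift (hG : LipschitzWith L G) {v : ℝ} (hv : 0 ≤ v) (hv1 : v ≤ 1) (x : Sp d) :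
    Integrable (fun w => G (v • x + √(1 - v ^ 2) • w)) (gd d) :=
  (integrable_bound ‖G 0‖ L x).mono' (hG.continuous.comp (by fun_prop)).aestronglyMeasurable
    (ae_of_all _ fun w => norm_shift_le hG hv hv1 x w)

/-- The constant in the growth bound. -/
noncomputable def grow (G : Sp d → Sp d) (L : NNReal) : ℝ := ‖G 0‖ + L * ∫ w, ‖w‖ ∂gd d

theorem grow_nonneg : 0 ≤ grow G L :=
  add_nonneg (norm_nonneg _) (mul_nonneg (NNReal.coe_nonneg L) (integral_nonneg fun _ => norm_nonneg _))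

theorem norm_pv_le (hG : LipschitzWith L G) {v : ℝ} (hv : 0 ≤ v) (hv1 : v ≤ 1) (x : Sp d) :
    ‖pv v G x‖ ≤ grow G L + L * ‖x‖ := by
  refine (norm_integral_le_of_norm_le (integrable_bound ‖G 0‖ L x)
    (ae_of_all _ fun w => norm_shift_le hG hv hv1 x w)).trans ?_
  have hi : Integrable (fun w : Sp d => (L:ℝ) * (‖x‖ + ‖w‖)) (gd d) :=
    ((integrable_const ‖x‖).add integrable_norm).const_mul _
  rw [integral_add (integrable_const _) hi, integral_const_mul,
    integral_add (integrable_const _) integrable_norm]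
  simp only [integral_const, probReal_univ, one_smul, grow]
  linarith [mul_add (L:ℝ) ‖x‖ (∫ w, ‖w‖ ∂gd d)]

theorem lip_pv (hG : LipschitzWith L G) {v : ℝ} (hv : 0 ≤ v) (hv1 : v ≤ 1) :
    LipschitzWith L (pv v G) := by
  refine LipschitzWith.of_dist_le_mul fun x y => ?_
  simp only [dist_eq_norm, pv, smth]
  rw [← integral_sub (integrable_shift hG hv hv1 x) (integrable_shift hG hv hv1 y)]
  refine (norm_integral_le_of_norm_le_const (C := L * ‖x - y‖) (ae_of_all _ fun w => ?_)).trans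
    (by simp)
  refine (hG.norm_sub_le _ _).trans ?_
  rw [add_sub_add_right_eq_sub, ← smul_sub, norm_smul, Real.norm_eq_abs, abs_of_nonneg hv]
  gcongr
  exact mul_le_of_le_one_left (norm_nonneg _) hv1

theorem continuousOn_pv (hG : LipschitzWith L G) (x : Sp d) :
    ContinuousOn (fun v => pv v G x) (Set.Icc 0 1) := by
  refine continuousOn_of_dominated (bound := fun w => ‖G 0‖ + L * (‖x‖ + ‖w‖))
    (fun v _ => (hG.continuous.comp (by fun_prop)).aestronglyMeasurable)
    (fun v hv => ae_of_all _ fun w => norm_shift_le hG hv.1 hv.2 x w)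
    (integrable_bound _ _ x) (ae_of_all _ fun w => ?_)
  exact (hG.continuous.comp (by fun_prop)).continuousOn

theorem pv_one (x : Sp d) : pv 1 G x = G x := by
  simp [pv, smth]

theorem integrable_quad {F : Sp d × Sp d → ℝ} (hF : Continuous F) {C : ℝ}
    (hb : ∀ p, |F p| ≤ C * (1 + ‖p.1‖ ^ 2 + ‖p.2‖ ^ 2)) : Integrable F ((gd d).prod (gd d)) := by
  have h2 := (integral_norm_sq (ι := Fin d)).1
  refine ((((integrable_const (1:ℝ)).add (h2.comp_fst (gd d))).add (h2.comp_snd (gd d))).const_mul C).mono'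
    hF.aestronglyMeasurable (ae_of_all _ fun p => ?_)
  simpa using hb p

theorem integrable_shift_pair (hG : LipschitzWith L G) {a b : ℝ} (x : Sp d) :
    Integrable (fun p : Sp d × Sp d => G (x + a • p.1 + b • p.2)) ((gd d).prod (gd d)) := by
  have hb : Integrable (fun p : Sp d × Sp d => ‖G 0‖ + L * (‖x‖ + |a| * ‖p.1‖ + |b| * ‖p.2‖))
      ((gd d).prod (gd d)) :=
    (integrable_const _).add ((((integrable_const _).add
      ((integrable_norm.comp_fst (gd d)).const_mul |a|)).add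
        ((integrable_norm.comp_snd (gd d)).const_mul |b|)).const_mul _)
  refine hb.mono' (hG.continuous.comp (by fun_prop)).aestronglyMeasurable (ae_of_all _ fun p => ?_)
  refine (norm_le_lip hG _).trans ?_
  gcongr
  refine norm_add₃_le.trans ?_
  simp [norm_smul]

/-- The semigroup law. -/
theorem pv_comp (hG : LipschitzWith L G) {a b : ℝ} (ha : 0 ≤ a) (ha1 : a ≤ 1) (hb : 0 ≤ b)
    (hb1 : b ≤ 1) (y : Sp d) :
    ∫ z, pv b G (a • y + √(1 - a ^ 2) • z) ∂gd d = pv (a * b) G y := by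
  set a' := √(1 - a ^ 2) with ha'
  set b' := √(1 - b ^ 2) with hb'
  have e : √((b * a') ^ 2 + b' ^ 2) = √(1 - (a * b) ^ 2) := by
    congr 1
    rw [mul_pow, ha', hb', Real.sq_sqrt (by nlinarith), Real.sq_sqrt (by nlinarith)]
    ring
  have hGc : Continuous fun u => G ((a * b) • y + u) := hG.continuous.comp (by fun_prop)
  have hint := integrable_shift_pair hG (a := b * a') (b := b') ((a * b) • y)
  calc ∫ z, pv b G (a • y + a' • z) ∂gd d
      = ∫ p : Sp d × Sp d, G ((a * b) • y + (b * a') • p.1 + b' • p.2) ∂(gd d).prod (gd d) := by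
        rw [integral_prod _ hint]
        refine integral_congr_ae (ae_of_all _ fun z => ?_)
        simp only [pv, smth, smul_add, smul_smul, mul_comm b a, ← hb']
    _ = ∫ u, G ((a * b) • y + u)
          ∂((gd d).prod (gd d)).map fun p : Sp d × Sp d => (b * a') • p.1 + b' • p.2 := by
        rw [integral_map (by fun_prop) hGc.aestronglyMeasurable]
        simp only [add_assoc]
    _ = pv (a * b) G y := by
        rw [gauss_combine, integral_map (by fun_prop) hGc.aestronglyMeasurable, e]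
        rfl

/-- Self-adjointness with the semigroup law. -/
theorem inner_pv_pv (hG : LipschitzWith L G) {a b : ℝ} (ha : 0 ≤ a) (ha1 : a ≤ 1) (hb : 0 ≤ b)
    (hb1 : b ≤ 1) :
    ∫ x, ⟪pv a G x, pv b G x⟫ ∂gd d = ∫ x, ⟪G x, pv (a * b) G x⟫ ∂gd d := by
  set a' := √(1 - a ^ 2) with ha'
  have haa : a ^ 2 + a' ^ 2 = 1 := by rw [ha', Real.sq_sqrt (by nlinarith)]; ring
  have hc := (lip_pv hG hb hb1).continuous
  have hbound : ∀ (s t u v : ℝ), |s| ≤ 1 → |t| ≤ 1 → |u| ≤ 1 → |v| ≤ 1 → ∀ p : Sp d × Sp d,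
      |⟪G (s • p.1 + t • p.2), pv b G (u • p.1 + v • p.2)⟫| ≤
        (3 * (‖G 0‖ + L) * (grow G L + L)) * (1 + ‖p.1‖ ^ 2 + ‖p.2‖ ^ 2) := by
    intro s t u v hs ht hu hv p
    have hn : ∀ c e : ℝ, |c| ≤ 1 → |e| ≤ 1 → ‖c • p.1 + e • p.2‖ ≤ ‖p.1‖ + ‖p.2‖ := by
      intro c e hc he
      refine (norm_add_le _ _).trans ?_
      rw [norm_smul, norm_smul, Real.norm_eq_abs, Real.norm_eq_abs]
      gcongr <;> exact mul_le_of_le_one_left (norm_nonneg _) (by assumption)
    set r := ‖p.1‖ + ‖p.2‖ with hr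
    have hr0 : 0 ≤ r := by positivity
    have g0 : 0 ≤ grow G L := grow_nonneg
    have h1 : ‖G (s • p.1 + t • p.2)‖ ≤ (‖G 0‖ + L) * (1 + r) := by
      refine (norm_le_lip hG _).trans ?_
      have := mul_le_mul_of_nonneg_left (hn s t hs ht) (NNReal.coe_nonneg L)
      nlinarith [mul_nonneg (norm_nonneg (G 0)) hr0, (NNReal.coe_nonneg L)]
    have h2 : ‖pv b G (u • p.1 + v • p.2)‖ ≤ (grow G L + L) * (1 + r) := by
      refine (norm_pv_le hG hb hb1 _).trans ?_
      have := mul_le_mul_of_nonneg_left (hn u v hu hv) (NNReal.coe_nonneg L)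
      nlinarith [mul_nonneg g0 hr0, (NNReal.coe_nonneg L)]
    have h3 : (1 + r) ^ 2 ≤ 3 * (1 + ‖p.1‖ ^ 2 + ‖p.2‖ ^ 2) := by
      rw [hr]
      nlinarith [sq_nonneg (1 - ‖p.1‖), sq_nonneg (1 - ‖p.2‖), sq_nonneg (‖p.1‖ - ‖p.2‖)]
    refine (abs_real_inner_le_norm _ _).trans ?_
    calc ‖G (s • p.1 + t • p.2)‖ * ‖pv b G (u • p.1 + v • p.2)‖
        ≤ (‖G 0‖ + L) * (1 + r) * ((grow G L + L) * (1 + r)) := by gcongr
      _ = (‖G 0‖ + L) * (grow G L + L) * (1 + r) ^ 2 := by ring
      _ ≤ (‖G 0‖ + L) * (grow G L + L) * (3 * (1 + ‖p.1‖ ^ 2 + ‖p.2‖ ^ 2)) := by gcongr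
      _ = _ := by ring
  have haab : |a| ≤ 1 := by rwa [abs_of_nonneg ha]
  have ha'b : |a'| ≤ 1 := by
    rw [abs_of_nonneg (Real.sqrt_nonneg _)]; exact sqrt_one_sub_le a
  set R : Sp d × Sp d → Sp d × Sp d :=
    fun p => (a • p.1 + a' • p.2, a' • p.1 - a • p.2) with hR
  have hmp : MeasurePreserving R ((gd d).prod (gd d)) ((gd d).prod (gd d)) := gauss_rotate haa
  set F : Sp d × Sp d → ℝ := fun q => ⟪G q.1, pv b G (a • q.1 + a' • q.2)⟫ with hF
  have hFc : Continuous F :=
    (hG.continuous.comp continuous_fst).inner (hc.comp (by fun_prop))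
  have hFi : Integrable F ((gd d).prod (gd d)) := integrable_quad hFc fun p => by
    simpa using hbound 1 0 a a' (by simp) (by simp) haab ha'b p
  have hFR : ∀ p, F (R p) = ⟪G (a • p.1 + a' • p.2), pv b G p.1⟫ := by
    intro p
    simp only [hF, hR]
    congr 2
    rw [show a • (a • p.1 + a' • p.2) + a' • (a' • p.1 - a • p.2) = (a ^ 2 + a' ^ 2) • p.1 by module,
      haa, one_smul]
  have hi1 : Integrable (fun p : Sp d × Sp d => ⟪G (a • p.1 + a' • p.2), pv b G p.1⟫)
      ((gd d).prod (gd d)) :=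
    integrable_quad ((hG.continuous.comp (by fun_prop)).inner (hc.comp continuous_fst)) fun p => by
      simpa using hbound a a' 1 0 haab ha'b (by simp) (by simp) p
  calc ∫ x, ⟪pv a G x, pv b G x⟫ ∂gd d
      = ∫ p : Sp d × Sp d, ⟪G (a • p.1 + a' • p.2), pv b G p.1⟫ ∂(gd d).prod (gd d) := by
        rw [integral_prod _ hi1]
        refine integral_congr_ae (ae_of_all _ fun x => ?_)
        simp only
        rw [real_inner_comm]
        simp only [pv, smth, ← ha']
        rw [← integral_inner (integrable_shift hG ha ha1 x)]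
        exact integral_congr_ae (ae_of_all _ fun w => real_inner_comm _ _)
    _ = ∫ p : Sp d × Sp d, F (R p) ∂(gd d).prod (gd d) := by simp only [hFR]
    _ = ∫ q, F q ∂(gd d).prod (gd d) := by
        conv_rhs => rw [← hmp.map_eq]
        rw [integral_map hmp.aemeasurable hFc.aestronglyMeasurable]
    _ = ∫ y, ⟪G y, pv (a * b) G y⟫ ∂gd d := by
        rw [integral_prod _ hFi]
        refine integral_congr_ae (ae_of_all _ fun y => ?_)
        simp only [hF]
        have hiz : Integrable (fun z => pv b G (a • y + a' • z)) (gd d) := by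
          refine (integrable_bound (grow G L) L y).mono'
            (hc.comp (by fun_prop)).aestronglyMeasurable (ae_of_all _ fun z => ?_)
          refine (norm_pv_le hG hb hb1 _).trans ?_
          gcongr
          refine (norm_add_le _ _).trans ?_
          rw [norm_smul, norm_smul, Real.norm_eq_abs, Real.norm_eq_abs]
          gcongr <;> exact mul_le_of_le_one_left (norm_nonneg _) (by assumption)
        rw [integral_inner hiz, pv_comp hG ha ha1 hb hb1]

theorem memLp_pv (hG : LipschitzWith L G) {v : ℝ} (hv : 0 ≤ v) (hv1 : v ≤ 1) :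
    MemLp (pv v G) 2 (gd d) := by
  rw [memLp_two_iff_integrable_sq_norm (lip_pv hG hv hv1).continuous.aestronglyMeasurable]
  refine (((integrable_const (1:ℝ)).add (integral_norm_sq (ι := Fin d)).1).const_mul
    (2 * (grow G L ^ 2 + (L:ℝ) ^ 2))).mono'
    ((lip_pv hG hv hv1).continuous.norm.pow 2).aestronglyMeasurable (ae_of_all _ fun x => ?_)
  simp only [Real.norm_eq_abs, abs_pow, abs_norm, Pi.add_apply]
  have h := norm_pv_le hG hv hv1 x
  have : ‖pv v G x‖ ^ 2 ≤ (grow G L + L * ‖x‖) ^ 2 := pow_le_pow_left₀ (norm_nonneg _) h 2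
  nlinarith [sq_nonneg (grow G L - L * ‖x‖), mul_nonneg (sq_nonneg (grow G L)) (sq_nonneg ‖x‖),
    sq_nonneg (L:ℝ)]

end Vale.Agent.P347.Quarter.Quad
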