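import Mathlib

/-! # P347: a functional calculus bound for Hankel sequences of vectors

If the inner products of `U i` and `U j` depend on `i + j` only and the norms are bounded, then a combination of the even vectors is bounded by the supremum of the corresponding
polynomial on `[0,1]`.
-/

open Polynomial Finset
open scoped RealInnerProductSpace BigOperators

namespace Vale.Agent.P347.Quarter.Quad

theorem choose_ratio_approx {n i : ℕ} (hi : i ≤ n) : ∀ k : ℕ, k ≤ n →
    |((i.choose k : ℝ) / (n.choose k)) - ((i:ℝ) / n) ^ k| ≤ (k:ℝ) ^ 2 / n := by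
  intro k
  induction k with
  | zero => simp
  | succ k ih =>
    intro hk
    have hkn : k < n := by omega
    have hn : (0:ℝ) < n := by
      have : 0 < n := by omega
      exact_mod_cast this
    have hc : (0:ℝ) < n.choose k := by exact_mod_cast Nat.choose_pos hkn.le
    have hnk : (0:ℝ) < (n:ℝ) - k := by
      have : (k:ℝ) < n := by exact_mod_cast hkn
      linarith
    set f : ℝ := ((i - k : ℕ) : ℝ) / ((n:ℝ) - k) with hf
    have hrec : ((i.choose (k + 1) : ℝ) / (n.choose (k + 1))) =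
        (i.choose k : ℝ) / (n.choose k) * f := by
      have h1 : (i.choose (k + 1) : ℝ) * (k + 1) = i.choose k * ((i - k : ℕ) : ℝ) := by
        exact_mod_cast Nat.choose_succ_right_eq i k
      have h2 : (n.choose (k + 1) : ℝ) * (k + 1) = n.choose k * ((n:ℝ) - k) := by
        rw [← Nat.cast_sub hkn.le]
        exact_mod_cast Nat.choose_succ_right_eq n k
      have hc' : (0:ℝ) < n.choose (k + 1) := by exact_mod_cast Nat.choose_pos hk
      rw [hf]
      field_simp
      have hk1 : (0:ℝ) < (k:ℝ) + 1 := by positivity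
      apply mul_right_cancel₀ hk1.ne'
      linear_combination ((n:ℝ) - k) * (n.choose k : ℝ) * h1 -
        ((i - k : ℕ) : ℝ) * (i.choose k : ℝ) * h2
    have hf0 : 0 ≤ f := by rw [hf]; positivity
    have hf1 : f ≤ 1 := by
      rw [hf, div_le_one hnk, ← Nat.cast_sub hkn.le]
      exact_mod_cast Nat.sub_le_sub_right hi k
    have hb1 : ((i:ℝ) / n) ^ k ≤ 1 := by
      refine pow_le_one₀ (by positivity) ?_
      rw [div_le_one hn]; exact_mod_cast hi
    have hd : |f - (i:ℝ) / n| ≤ (k:ℝ) / n := by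
      by_cases hik : k ≤ i
      · rw [hf, Nat.cast_sub hik, div_sub_div _ _ hnk.ne' hn.ne', abs_div,
          abs_of_pos (mul_pos hnk hn), div_le_div_iff₀ (mul_pos hnk hn) hn]
        have hin : (i:ℝ) ≤ n := by exact_mod_cast hi
        have hki : (k:ℝ) ≤ i := by exact_mod_cast hik
        rw [show ((i:ℝ) - k) * n - ((n:ℝ) - k) * i = -((k:ℝ) * ((n:ℝ) - i)) by ring, abs_neg,
          abs_of_nonneg (mul_nonneg (Nat.cast_nonneg k) (by linarith))]
        have hk0 : (0:ℝ) ≤ k := Nat.cast_nonneg k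
        have : (k:ℝ) * ((n:ℝ) - i) ≤ k * ((n:ℝ) - k) := by gcongr
        nlinarith
      · have : i - k = 0 := by omega
        rw [hf, this]
        simp only [Nat.cast_zero, zero_div, zero_sub, abs_neg]
        rw [abs_of_nonneg (by positivity)]
        gcongr
        omega
    have ha := ih hkn.le
    rw [hrec, pow_succ]
    have e : (i.choose k : ℝ) / (n.choose k) * f - ((i:ℝ) / n) ^ k * ((i:ℝ) / n) =
        ((i.choose k : ℝ) / (n.choose k) - ((i:ℝ) / n) ^ k) * f +
          ((i:ℝ) / n) ^ k * (f - (i:ℝ) / n) := by ring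
    rw [e]
    refine (abs_add_le _ _).trans ?_
    rw [abs_mul, abs_mul, abs_of_nonneg hf0, abs_of_nonneg (by positivity : 0 ≤ ((i:ℝ) / n) ^ k)]
    calc |(i.choose k : ℝ) / (n.choose k) - ((i:ℝ) / n) ^ k| * f + ((i:ℝ) / n) ^ k * |f - (i:ℝ) / n|
        ≤ (k:ℝ) ^ 2 / n * 1 + 1 * ((k:ℝ) / n) := by gcongr
      _ ≤ ((k + 1 : ℕ) : ℝ) ^ 2 / n := by
          rw [mul_one, one_mul, ← add_div]
          gcongr
          push_cast; nlinarith

/-- A monomial in the Bernstein basis of higher degree. -/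
theorem bernstein_monomial {k n : ℕ} (hk : k ≤ n) :
    ∑ i ∈ range (n + 1), ((i.choose k : ℝ) / (n.choose k) * n.choose i) •
      ((X : ℝ[X]) ^ i * (1 - X) ^ (n - i)) = X ^ k := by
  have hc : (0:ℝ) < n.choose k := by exact_mod_cast Nat.choose_pos hk
  have hsplit : ∑ i ∈ range (n + 1), ((i.choose k : ℝ) / (n.choose k) * n.choose i) •
      ((X : ℝ[X]) ^ i * (1 - X) ^ (n - i)) = ∑ l ∈ range (n - k + 1),
        (((k + l).choose k : ℝ) / (n.choose k) * n.choose (k + l)) •
          ((X : ℝ[X]) ^ (k + l) * (1 - X) ^ (n - (k + l))) := by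
    rw [show n + 1 = k + (n - k + 1) by omega, Finset.sum_range_add, Finset.sum_eq_zero, zero_add]
    intro i hi
    rw [Nat.choose_eq_zero_of_lt (Finset.mem_range.1 hi)]
    simp
  rw [hsplit]
  have key : ∀ l ∈ range (n - k + 1),
      (((k + l).choose k : ℝ) / (n.choose k) * n.choose (k + l)) •
        ((X : ℝ[X]) ^ (k + l) * (1 - X) ^ (n - (k + l))) =
      X ^ k * (X ^ l * (1 - X) ^ (n - k - l) * ((n - k).choose l : ℝ[X])) := by
    intro l hl
    have h := Nat.choose_mul (n := n) (k := k + l) (s := k) (by omega)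
    rw [show k + l - k = l by omega] at h
    have h' : (((k + l).choose k : ℝ) / (n.choose k) * n.choose (k + l)) = ((n - k).choose l : ℝ) := by
      have h2 : (n.choose (k + l) : ℝ) * (k + l).choose k = n.choose k * (n - k).choose l := by
        exact_mod_cast h
      field_simp
      linarith
    rw [h', show n - (k + l) = n - k - l by omega, smul_eq_C_mul, map_natCast, pow_add]
    ring
  rw [Finset.sum_congr rfl key, ← Finset.mul_sum, ← add_pow]
  simp

variable {E : Type*} [NormedAddCommGroup E] [InnerProductSpace ℝ E]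

/-- The evaluation of a polynomial at a sequence of vectors. -/
noncomputable def ev (U : ℕ → E) : ℝ[X] →ₗ[ℝ] E := (Polynomial.basisMonomials ℝ).constr ℝ U

theorem ev_monomial (U : ℕ → E) (n : ℕ) (c : ℝ) : ev U (monomial n c) = c • U n := by
  have : monomial n c = c • (Polynomial.basisMonomials ℝ) n := by
    simp [Polynomial.coe_basisMonomials, smul_monomial]
  rw [this, map_smul, ev, Module.Basis.constr_basis]

theorem ev_X_pow (U : ℕ → E) (n : ℕ) : ev U ((X : ℝ[X]) ^ n) = U n := by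
  rw [X_pow_eq_monomial, ev_monomial, one_smul]

theorem inner_ev {U : ℕ → E} (hU : ∀ i j, ⟪U i, U j⟫ = ⟪U 0, U (i + j)⟫) (a b : ℝ[X]) :
    ⟪ev U a, ev U b⟫ = ⟪U 0, ev U (a * b)⟫ := by
  induction a using Polynomial.induction_on' with
  | add p q hp hq => simp [add_mul, inner_add_left, inner_add_right, hp, hq]
  | monomial i c =>
    induction b using Polynomial.induction_on' with
    | add p q hp hq => simp [mul_add, inner_add_right, hp, hq]
    | monomial j e =>
      rw [monomial_mul_monomial, ev_monomial, ev_monomial, ev_monomial, real_inner_smul_left,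
        real_inner_smul_right, real_inner_smul_right, hU i j]
      ring

theorem norm_ev_le {U : ℕ → E} {B : ℝ} (hB : ∀ n, ‖U n‖ ≤ B) (a : ℝ[X]) (n : ℕ) :
    ‖ev U (X ^ n * a)‖ ≤ (∑ k ∈ a.support, |a.coeff k|) * B := by
  conv_lhs => rw [← a.sum_monomial_eq, Polynomial.sum_def, Finset.mul_sum, map_sum]
  rw [Finset.sum_mul]
  refine (norm_sum_le _ _).trans (Finset.sum_le_sum fun k _ => ?_)
  rw [X_pow_eq_monomial, monomial_mul_monomial, one_mul, ev_monomial, norm_smul, Real.norm_eq_abs]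
  exact mul_le_mul_of_nonneg_left (hB _) (abs_nonneg _)

/-- The shift is a contraction. -/
theorem norm_ev_X_le {U : ℕ → E} (hU : ∀ i j, ⟪U i, U j⟫ = ⟪U 0, U (i + j)⟫)
    {B : ℝ} (hB : ∀ n, ‖U n‖ ≤ B) (a : ℝ[X]) : ‖ev U (X * a)‖ ≤ ‖ev U a‖ := by
  set f : ℕ → ℝ := fun n => ‖ev U (X ^ n * a)‖ with hf
  have hconv : ∀ n, f (n + 1) ^ 2 ≤ f n * f (n + 2) := by
    intro n
    have h : f (n + 1) ^ 2 = ⟪ev U (X ^ n * a), ev U (X ^ (n + 2) * a)⟫ := by
      simp only [hf]
      rw [← real_inner_self_eq_norm_sq, inner_ev hU, inner_ev hU]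
      congr 2; ring
    rw [h]
    exact real_inner_le_norm _ _
  by_contra hlt
  push Not at hlt
  have h0 : f 0 < f 1 := by simpa [hf] using hlt
  have hpos : 0 < f 1 := lt_of_le_of_lt (show 0 ≤ f 0 from norm_nonneg _) h0
  set δ := f 1 - f 0 with hδ
  have hinc : ∀ n, f n + δ ≤ f (n + 1) := by
    intro n
    induction n with
    | zero => simp [hδ]
    | succ n ih =>
      have hn : 0 ≤ f n := norm_nonneg _
      have hd : 0 < δ := by linarith
      by_cases hz : f n = 0
      · have := hconv n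
        rw [hz, zero_mul] at this
        nlinarith
      · have hn' : 0 < f n := lt_of_le_of_ne hn (Ne.symm hz)
        have := hconv n
        show f (n + 1) + δ ≤ f (n + 2)
        nlinarith
  have hlin : ∀ n : ℕ, (n:ℝ) * δ ≤ f n := by
    intro n
    induction n with
    | zero => simp [hf]
    | succ n ih => push_cast; linarith [hinc n]
  obtain ⟨n, hn⟩ := exists_nat_gt ((∑ k ∈ a.support, |a.coeff k|) * B / δ)
  rw [div_lt_iff₀ (by linarith : 0 < δ)] at hn
  linarith [hlin n, norm_ev_le hB a n]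

theorem moment_bernstein_nonneg {U : ℕ → E} (hU : ∀ i j, ⟪U i, U j⟫ = ⟪U 0, U (i + j)⟫)
    {B : ℝ} (hB : ∀ n, ‖U n‖ ≤ B) (k j : ℕ) :
    0 ≤ ⟪U 0, ev U (((X : ℝ[X]) ^ k * (1 - X) ^ j).comp (X ^ 2))⟫ := by
  simp only [mul_comp, pow_comp, sub_comp, X_comp, one_comp]
  obtain ⟨l, rfl⟩ | ⟨l, rfl⟩ := Nat.even_or_odd j
  · rw [show ((X : ℝ[X]) ^ 2) ^ k * (1 - X ^ 2) ^ (l + l) =
      (X ^ k * (1 - X ^ 2) ^ l) * (X ^ k * (1 - X ^ 2) ^ l) by ring, ← inner_ev hU]
    exact real_inner_self_nonneg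
  · set a : ℝ[X] := X ^ k * (1 - X ^ 2) ^ l with ha
    rw [show ((X : ℝ[X]) ^ 2) ^ k * (1 - X ^ 2) ^ (2 * l + 1) = a * a - (X * a) * (X * a) by
      rw [ha]; ring, map_sub, inner_sub_right, ← inner_ev hU, ← inner_ev hU,
      real_inner_self_eq_norm_sq, real_inner_self_eq_norm_sq, sub_nonneg]
    exact pow_le_pow_left₀ (norm_nonneg _) (norm_ev_X_le hU hB a) 2

theorem moment_nonneg {U : ℕ → E} (hU : ∀ i j, ⟪U i, U j⟫ = ⟪U 0, U (i + j)⟫)
    {B : ℝ} (hB : ∀ n, ‖U n‖ ≤ B) (r : ℝ[X]) (hr : ∀ y ∈ Set.Icc (0:ℝ) 1, 0 ≤ r.eval y) :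
    0 ≤ ⟪U 0, ev U (r.comp (X ^ 2))⟫ := by
  set L : ℝ[X] → ℝ := fun s => ⟪U 0, ev U (s.comp (X ^ 2))⟫ with hL
  have Ladd : ∀ s t, L (s + t) = L s + L t := by
    intro s t; simp [hL, inner_add_right]
  have Lsmul : ∀ (c : ℝ) s, L (c • s) = c * L s := by
    intro c s; simp [hL, smul_comp, inner_smul_right]
  have Lsum : ∀ (s : Finset ℕ) (g : ℕ → ℝ[X]), L (∑ i ∈ s, g i) = ∑ i ∈ s, L (g i) := by
    intro s g; simp [hL, Polynomial.sum_comp, inner_sum]
  set D := r.natDegree with hD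
  set K : ℝ := ∑ k ∈ range (D + 1), |r.coeff k| * (k:ℝ) ^ 2 with hK
  have hbase : ∀ n i, 0 ≤ L ((X : ℝ[X]) ^ i * (1 - X) ^ (n - i)) := fun n i =>
    moment_bernstein_nonneg hU hB i (n - i)
  have hn : ∀ n : ℕ, D < n → -(K / n) * L 1 ≤ L r := by
    intro n hn
    set β : ℕ → ℝ := fun i => ∑ k ∈ range (D + 1), r.coeff k * ((i.choose k : ℝ) / n.choose k)
      with hβ
    have hrep : r = ∑ i ∈ range (n + 1), (β i * n.choose i) • ((X : ℝ[X]) ^ i * (1 - X) ^ (n - i)) := by
      conv_lhs => rw [r.as_sum_range_C_mul_X_pow]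
      rw [← hD]
      have hk : ∀ k ∈ range (D + 1), C (r.coeff k) * (X : ℝ[X]) ^ k = ∑ i ∈ range (n + 1),
          (r.coeff k * ((i.choose k : ℝ) / n.choose k) * n.choose i) •
            ((X : ℝ[X]) ^ i * (1 - X) ^ (n - i)) := by
        intro k hk
        rw [Finset.mem_range] at hk
        rw [← bernstein_monomial (by omega : k ≤ n), ← smul_eq_C_mul, Finset.smul_sum]
        refine Finset.sum_congr rfl fun i _ => ?_
        rw [smul_smul]; ring_nf
      rw [Finset.sum_congr rfl hk, Finset.sum_comm]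
      refine Finset.sum_congr rfl fun i _ => ?_
      rw [← Finset.sum_smul, hβ, Finset.sum_mul]
    have h1 : (1 : ℝ[X]) = ∑ i ∈ range (n + 1),
        (n.choose i : ℝ) • ((X : ℝ[X]) ^ i * (1 - X) ^ (n - i)) := by
      have := bernstein_monomial (Nat.zero_le n)
      simpa using this.symm
    have hβi : ∀ i ∈ range (n + 1), -(K / n) ≤ β i := by
      intro i hi
      rw [Finset.mem_range] at hi
      have hev : r.eval ((i:ℝ) / n) = ∑ k ∈ range (D + 1), r.coeff k * ((i:ℝ) / n) ^ k :=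
        Polynomial.eval_eq_sum_range _
      have h0 := hr ((i:ℝ) / n) ⟨by positivity, by
        rw [div_le_one (by exact_mod_cast (by omega : 0 < n))]; exact_mod_cast (by omega : i ≤ n)⟩
      have : |β i - r.eval ((i:ℝ) / n)| ≤ K / n := by
        rw [hev, hβ, ← Finset.sum_sub_distrib, hK, Finset.sum_div]
        refine (Finset.abs_sum_le_sum_abs _ _).trans (Finset.sum_le_sum fun k hk => ?_)
        rw [Finset.mem_range] at hk
        rw [← mul_sub, abs_mul, mul_div_assoc]
        exact mul_le_mul_of_nonneg_left (choose_ratio_approx (by omega) k (by omega)) (abs_nonneg _)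
      linarith [neg_le_of_abs_le this]
    conv_lhs => rw [h1]
    rw [hrep, Lsum, Lsum, Finset.mul_sum]
    refine Finset.sum_le_sum fun i hi => ?_
    rw [Lsmul, Lsmul, mul_assoc (β i)]
    exact mul_le_mul_of_nonneg_right (hβi i hi) (mul_nonneg (Nat.cast_nonneg _) (hbase n i))
  have hlim : Filter.Tendsto (fun n : ℕ => -(K / n) * L 1) Filter.atTop (nhds 0) := by
    have := (tendsto_const_div_atTop_nhds_zero_nat K).neg.mul_const (L 1)
    simpa using this
  exact le_of_tendsto hlim (Filter.eventually_atTop.2 ⟨D + 1, fun n hn' => hn n (by omega)⟩)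

/-- Combinations of the even vectors. -/
theorem hankel_bound {U : ℕ → E} (hU : ∀ i j, ⟪U i, U j⟫ = ⟪U 0, U (i + j)⟫)
    {B : ℝ} (hB : ∀ n, ‖U n‖ ≤ B) {ι : Type*} (s : Finset ι) (c : ι → ℝ) (n : ι → ℕ) {M : ℝ}
    (hM0 : 0 ≤ M) (hM : ∀ y ∈ Set.Icc (0:ℝ) 1, |∑ j ∈ s, c j * y ^ n j| ≤ M) :
    ‖∑ j ∈ s, c j • U (2 * n j)‖ ≤ M * ‖U 0‖ := by
  set q : ℝ[X] := ∑ j ∈ s, c j • (X : ℝ[X]) ^ n j with hq
  have hev : ev U (q.comp (X ^ 2)) = ∑ j ∈ s, c j • U (2 * n j) := by
    rw [hq, Polynomial.sum_comp, map_sum]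
    refine Finset.sum_congr rfl fun j _ => ?_
    rw [smul_comp, map_smul, X_pow_comp, ← pow_mul, ev_X_pow]
  have hr := moment_nonneg hU hB (C (M ^ 2) - q * q) (fun y hy => by
    have h := hM y hy
    have hqy : q.eval y = ∑ j ∈ s, c j * y ^ n j := by simp [hq, eval_finsetSum]
    simp only [eval_sub, eval_C, eval_mul, hqy]
    nlinarith [abs_le.1 h])
  rw [sub_comp, C_comp, mul_comp, map_sub, inner_sub_right, ← inner_ev hU,
    ← mul_one (C (M ^ 2)), ← smul_eq_C_mul, map_smul, inner_smul_right, real_inner_self_eq_norm_sq, hev,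
    show ev U (1 : ℝ[X]) = U 0 by simpa using ev_X_pow U 0, real_inner_self_eq_norm_sq] at hr
  exact (sq_le_sq₀ (norm_nonneg _) (by positivity)).1 (by rw [mul_pow]; linarith)

end Vale.Agent.P347.Quarter.Quad
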