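import Mathlib

/-! # P347: a composite Newton–Cotes rule on geometric blocks, scalar form -/

open Real Finset
open scoped BigOperators Interval

namespace Vale.Agent.P347.Quarter.Quad

/-- The equispaced nodes in `[0,1)`. -/
noncomputable def node (p : ℕ) (i : Fin p) : ℝ := (i : ℝ) / p

/-- The interpolatory weights of the equispaced nodes. -/
noncomputable def nc (p : ℕ) (i : Fin p) : ℝ :=
  ∫ s in (0:ℝ)..1, (Lagrange.basis univ (node p) i).eval s

theorem node_injOn (p : ℕ) : Set.InjOn (node p) (univ : Finset (Fin p)) := by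
  intro i _ j _ h
  have hp : (p:ℝ) ≠ 0 := by
    have := i.pos
    positivity
  unfold node at h
  have : (i:ℝ) = j := by field_simp at h; exact h
  exact Fin.ext (by exact_mod_cast this)

theorem nc_exact (p : ℕ) {k : ℕ} (hk : k < p) :
    ∑ i, nc p i * node p i ^ k = 1 / (k + 1) := by
  have hP : (Polynomial.X ^ k : Polynomial ℝ) =
      Lagrange.interpolate univ (node p) fun i => node p i ^ k := by
    apply Lagrange.eq_interpolate_of_eval_eq _ (node_injOn p)
    · simpa using hk
    · intro i _; simp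
  have hs : ∀ s : ℝ, s ^ k = ∑ i, node p i ^ k * (Lagrange.basis univ (node p) i).eval s := by
    intro s
    have := congrArg (Polynomial.eval s) hP
    simpa [Lagrange.interpolate_apply, Polynomial.eval_finsetSum] using this
  have h1 : ∫ s in (0:ℝ)..1, s ^ k = 1 / (k + 1) := by simp
  rw [← h1]
  rw [intervalIntegral.integral_congr (fun s _ => hs s), intervalIntegral.integral_finsetSum]
  · refine Finset.sum_congr rfl fun i _ => ?_
    rw [intervalIntegral.integral_const_mul]
    unfold nc; ring
  · intro i _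
    exact ((Lagrange.basis univ (node p) i).continuous.const_mul _).intervalIntegrable _ _

/-- The error of the rule on `exp (-z s)`. -/
theorem nc_error (p : ℕ) : ∃ C : ℝ, 0 ≤ C ∧ ∀ z : ℝ, 0 ≤ z →
    |(∫ s in (0:ℝ)..1, exp (-(z * s))) - ∑ i, nc p i * exp (-(z * node p i))| ≤ C * z ^ p := by
  set A : ℝ := 1 + ∑ i, |nc p i| with hA
  refine ⟨(p + 2) * A, by positivity, fun z hz => ?_⟩
  have hA1 : 1 ≤ A := by
    have : 0 ≤ ∑ i, |nc p i| := Finset.sum_nonneg fun i _ => abs_nonneg _
    linarith
  have hnode : ∀ i : Fin p, 0 ≤ node p i ∧ node p i ≤ 1 := by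
    intro i
    refine ⟨by unfold node; positivity, ?_⟩
    unfold node
    rw [div_le_one (by have := i.pos; positivity)]
    exact_mod_cast i.isLt.le
  rcases Nat.eq_zero_or_pos p with rfl | hp
  · simp only [Nat.cast_zero, Finset.univ_eq_empty, Finset.sum_empty, pow_zero, mul_one, sub_zero,
      zero_add]
    have := intervalIntegral.norm_integral_le_of_norm_le_const
      (f := fun s => exp (-(z * s))) (C := 1) (a := (0:ℝ)) (b := 1) (by
        intro s hs
        rw [Set.uIoc_of_le zero_le_one] at hs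
        rw [Real.norm_eq_abs, abs_of_pos (exp_pos _)]
        exact exp_le_one_iff.2 (by nlinarith [hs.1, mul_nonneg hz hs.1.le]))
    simp only [Real.norm_eq_abs, sub_zero, abs_one, mul_one] at this
    have hA' : A = 1 := by simp [hA]
    linarith
  by_cases hz1 : z ≤ 1
  · -- Taylor polynomial
    have hrem : ∀ s : ℝ, 0 ≤ s → s ≤ 1 →
        |exp (-(z * s)) - ∑ k ∈ range p, (-(z * s)) ^ k / k.factorial| ≤ (p + 1) * z ^ p := by
      intro s hs hs1
      have hb : |-(z * s)| ≤ 1 := by
        rw [abs_neg, abs_of_nonneg (by positivity)]; nlinarith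
      refine (Real.exp_bound hb hp).trans ?_
      rw [abs_neg, abs_of_nonneg (by positivity)]
      have h1 : (z * s) ^ p ≤ z ^ p := pow_le_pow_left₀ (by positivity) (by nlinarith) p
      have h2 : ((p.succ : ℕ) : ℝ) / ((p.factorial : ℝ) * p) ≤ p + 1 := by
        rw [div_le_iff₀ (by positivity)]
        have : (1:ℝ) ≤ (p.factorial : ℝ) * p := by
          have h1 : 1 ≤ p.factorial * p :=
            Nat.one_le_iff_ne_zero.2 (Nat.mul_ne_zero (Nat.factorial_ne_zero p) (by omega))
          exact_mod_cast h1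
        push_cast
        nlinarith
      calc (z * s) ^ p * (((p.succ : ℕ) : ℝ) / ((p.factorial : ℝ) * p))
          ≤ z ^ p * (p + 1) := by gcongr
        _ = _ := by ring
    set P : ℝ → ℝ := fun s => ∑ k ∈ range p, (-(z * s)) ^ k / k.factorial with hPdef
    have hPint : ∫ s in (0:ℝ)..1, P s = ∑ i, nc p i * P (node p i) := by
      have hPs : ∀ s, P s = ∑ k ∈ range p, ((-z) ^ k / k.factorial) * s ^ k := by
        intro s
        refine Finset.sum_congr rfl fun k _ => ?_
        rw [← neg_mul, mul_pow]; ring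
      simp_rw [hPs, Finset.mul_sum]
      rw [Finset.sum_comm, intervalIntegral.integral_finsetSum]
      · refine Finset.sum_congr rfl fun k hk => ?_
        rw [intervalIntegral.integral_const_mul, integral_pow]
        have := nc_exact p (Finset.mem_range.1 hk)
        rw [show ((1:ℝ) ^ (k + 1) - 0 ^ (k + 1)) / (k + 1) = ∑ i, nc p i * node p i ^ k by
          rw [this]; simp]
        rw [Finset.mul_sum]
        exact Finset.sum_congr rfl fun i _ => by ring
      · intro k _
        exact (by fun_prop : Continuous fun s : ℝ => (-z) ^ k / k.factorial * s ^ k).intervalIntegrable _ _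
    have hPc : Continuous P := by unfold P; fun_prop
    have hec : Continuous fun s => exp (-(z * s)) := by fun_prop
    have e1 : |(∫ s in (0:ℝ)..1, exp (-(z * s))) - ∫ s in (0:ℝ)..1, P s| ≤ (p + 1) * z ^ p := by
      rw [← intervalIntegral.integral_sub (hec.intervalIntegrable _ _) (hPc.intervalIntegrable _ _)]
      have := intervalIntegral.norm_integral_le_of_norm_le_const
        (f := fun s => exp (-(z * s)) - P s) (C := (p + 1) * z ^ p) (a := (0:ℝ)) (b := 1) (by
          intro s hs
          rw [Set.uIoc_of_le zero_le_one] at hs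
          exact hrem s hs.1.le hs.2)
      simpa using this
    have e2 : |∑ i, nc p i * exp (-(z * node p i)) - ∑ i, nc p i * P (node p i)| ≤
        (∑ i, |nc p i|) * ((p + 1) * z ^ p) := by
      rw [← Finset.sum_sub_distrib, Finset.sum_mul]
      refine (Finset.abs_sum_le_sum_abs _ _).trans (Finset.sum_le_sum fun i _ => ?_)
      rw [← mul_sub, abs_mul]
      exact mul_le_mul_of_nonneg_left (hrem _ (hnode i).1 (hnode i).2) (abs_nonneg _)
    rw [← hPint] at e2
    have h3 := abs_sub_le (∫ s in (0:ℝ)..1, exp (-(z * s))) (∫ s in (0:ℝ)..1, P s)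
      (∑ i, nc p i * exp (-(z * node p i)))
    rw [abs_sub_comm] at e2
    have hzp : 0 ≤ z ^ p := pow_nonneg hz p
    calc _ ≤ (p + 1) * z ^ p + (∑ i, |nc p i|) * ((p + 1) * z ^ p) := h3.trans (add_le_add e1 e2)
      _ = A * ((p + 1) * z ^ p) := by rw [hA]; ring
      _ ≤ (p + 2) * A * z ^ p := by nlinarith [mul_nonneg (by linarith : (0:ℝ) ≤ A) hzp]
  · push Not at hz1
    have h1 : |∫ s in (0:ℝ)..1, exp (-(z * s))| ≤ 1 := by
      have := intervalIntegral.norm_integral_le_of_norm_le_const
        (f := fun s => exp (-(z * s))) (C := 1) (a := (0:ℝ)) (b := 1) (by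
          intro s hs
          rw [Set.uIoc_of_le zero_le_one] at hs
          rw [Real.norm_eq_abs, abs_of_pos (exp_pos _)]
          exact exp_le_one_iff.2 (by nlinarith [hs.1]))
      simpa using this
    have h2 : |∑ i, nc p i * exp (-(z * node p i))| ≤ ∑ i, |nc p i| := by
      refine (Finset.abs_sum_le_sum_abs _ _).trans (Finset.sum_le_sum fun i _ => ?_)
      rw [abs_mul, abs_of_pos (exp_pos _)]
      refine mul_le_of_le_one_right (abs_nonneg _) (exp_le_one_iff.2 ?_)
      nlinarith [(hnode i).1]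
    have hzp : 1 ≤ z ^ p := one_le_pow₀ hz1.le
    calc _ ≤ A := (abs_sub _ _).trans (by linarith)
      _ ≤ (p + 2) * A := by nlinarith [(Nat.cast_nonneg p : (0:ℝ) ≤ p)]
      _ ≤ (p + 2) * A * z ^ p := le_mul_of_one_le_right (by positivity) hzp

/-- `y^k exp (-y) ≤ k!`. -/
theorem pow_mul_exp_neg_le (k : ℕ) {y : ℝ} (hy : 0 ≤ y) : y ^ k * exp (-y) ≤ k.factorial := by
  have h := Real.pow_div_factorial_le_exp y hy k
  rw [div_le_iff₀ (by positivity)] at h
  rw [exp_neg, ← div_eq_mul_inv, div_le_iff₀ (exp_pos _)]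
  linarith [h, mul_comm (exp y) (k.factorial : ℝ)]

/-- `∑ x exp (-x)` over a doubling sequence. -/
theorem sum_doubling {x : ℝ} (hx : 0 ≤ x) (b : ℕ) :
    ∑ l ∈ range b, 2 ^ l * x * exp (-(2 ^ l * x)) ≤ 2 := by
  have h : ∀ y : ℝ, y * exp (-y) ≤ 2 * exp (-(y / 2)) - 2 * exp (-y) := by
    intro y
    have h1 := Real.add_one_le_exp (y / 2)
    have h2 : exp (-(y / 2)) = exp (y / 2) * exp (-y) := by
      rw [← exp_add]; congr 1; ring
    nlinarith [exp_pos (-y)]
  have h' : ∀ l, 2 ^ l * x * exp (-(2 ^ l * x)) ≤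
      (fun l => 2 * exp (-(2 ^ l * x / 2))) l - (fun l => 2 * exp (-(2 ^ l * x / 2))) (l + 1) := by
    intro l
    simp only
    rw [show (2:ℝ) ^ (l + 1) * x / 2 = 2 ^ l * x by ring]
    exact h _
  refine (Finset.sum_le_sum fun l _ => h' l).trans ?_
  rw [Finset.sum_range_sub']
  simp only [pow_zero, one_mul]
  have : exp (-(x / 2)) ≤ 1 := exp_le_one_iff.2 (by linarith)
  linarith [exp_pos (-(2 ^ b * x / 2))]

/-- The scalar rule: the nodes are the integer multiples `n j` of `t₀ / (p N)`. -/
theorem scalar_rule {p : ℕ} (hp : 1 ≤ p) :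
    ∃ C : ℝ, 0 ≤ C ∧ ∀ {t₀ : ℝ}, 0 < t₀ → ∀ N b : ℕ, 1 ≤ N →
      ∃ (w : Fin (N * p * b) → ℝ) (n : Fin (N * p * b) → ℕ), (∀ j, 1 ≤ n j) ∧ ∑ j, |w j| ≤ C ∧
        ∀ m : ℝ, 1 ≤ m →
          |exp (-(m * t₀)) / m - ∑ j, w j * exp (-((m - 1) * (n j * (t₀ / (p * N)))))| ≤
            C * (b * (1 / (N:ℝ)) ^ p + exp (-(t₀ * 2 ^ b))) := by
  obtain ⟨C₁, hC₁, herr⟩ := nc_error p
  set A : ℝ := ∑ i, |nc p i| with hA
  set C : ℝ := 1 + 2 * A + C₁ * (p + 1).factorial with hC
  have hA0 : 0 ≤ A := Finset.sum_nonneg fun i _ => abs_nonneg _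
  refine ⟨C, by positivity, fun {t₀} ht₀ N b hN => ?_⟩
  have hN' : (0:ℝ) < N := by exact_mod_cast hN
  have hp' : (0:ℝ) < p := by exact_mod_cast hp
  let e : Fin (N * p * b) ≃ (Fin b × Fin N) × Fin p :=
    (finCongr (show N * p * b = b * N * p by ring)).trans
      (finProdFinEquiv.symm.trans (Equiv.prodCongr finProdFinEquiv.symm (Equiv.refl _)))
  set L : ℕ → ℝ := fun l => 2 ^ l * t₀ / N with hL
  let nn : (Fin b × Fin N) × Fin p → ℕ := fun q => 2 ^ (q.1.1:ℕ) * (p * N + q.1.2 * p + q.2)
  let tt : (Fin b × Fin N) × Fin p → ℝ := fun q =>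
    2 ^ (q.1.1:ℕ) * t₀ + q.1.2 * L q.1.1 + L q.1.1 * node p q.2
  let ww : (Fin b × Fin N) × Fin p → ℝ := fun q => L q.1.1 * nc p q.2 * exp (-tt q)
  have htn : ∀ q, tt q = nn q * (t₀ / (p * N)) := by
    intro q
    simp only [tt, nn, hL, node]
    push_cast
    field_simp
  refine ⟨fun j => ww (e j), fun j => nn (e j), fun j => ?_, ?_, fun m hm => ?_⟩
  · simp only [nn]
    have : 1 ≤ p * N + (e j).1.2 * p + (e j).2 :=
      le_add_right (le_add_right (one_le_mul hp hN))
    exact one_le_mul Nat.one_le_two_pow this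
  · rw [e.sum_comp fun q => |ww q|, Fintype.sum_prod_type, Fintype.sum_prod_type]
    have : ∀ (l : Fin b) (i : Fin N), ∑ r, |ww ((l, i), r)| ≤
        A * (L l * exp (-(2 ^ (l:ℕ) * t₀))) := by
      intro l i
      rw [hA, Finset.sum_mul]
      refine Finset.sum_le_sum fun r _ => ?_
      simp only [ww]
      have hL0 : 0 ≤ L l := by simp only [hL]; positivity
      rw [abs_mul, abs_mul, abs_of_nonneg hL0, abs_of_pos (exp_pos _)]
      have : exp (-tt ((l, i), r)) ≤ exp (-(2 ^ (l:ℕ) * t₀)) := by
        apply exp_le_exp.2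
        simp only [tt, node]
        have h1 : 0 ≤ (i:ℝ) * L l := by positivity
        have h2 : 0 ≤ L l * ((r:ℝ) / p) := by positivity
        linarith
      calc L l * |nc p r| * exp (-tt ((l, i), r)) ≤ L l * |nc p r| * exp (-(2 ^ (l:ℕ) * t₀)) := by
            gcongr
        _ = _ := by ring
    calc ∑ l : Fin b, ∑ i : Fin N, ∑ r, |ww ((l, i), r)|
        ≤ ∑ l : Fin b, ∑ _i : Fin N, A * (L l * exp (-(2 ^ (l:ℕ) * t₀))) :=
          Finset.sum_le_sum fun l _ => Finset.sum_le_sum fun i _ => this l i
      _ = A * ∑ l ∈ range b, 2 ^ l * t₀ * exp (-(2 ^ l * t₀)) := by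
          rw [Finset.mul_sum, ← Fin.sum_univ_eq_sum_range
            (fun l => A * (2 ^ l * t₀ * exp (-(2 ^ l * t₀))))]
          refine Finset.sum_congr rfl fun l _ => ?_
          simp only [Finset.sum_const, Finset.card_univ, Fintype.card_fin, nsmul_eq_mul, hL]
          field_simp
      _ ≤ A * 2 := mul_le_mul_of_nonneg_left (sum_doubling ht₀.le b) hA0
      _ ≤ C := by
          have : 0 ≤ C₁ * ((p + 1).factorial : ℝ) := by positivity
          rw [hC]; linarith
  · have hm0 : 0 < m := by linarith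
    rw [e.sum_comp fun q => ww q * exp (-((m - 1) * (nn q * (t₀ / (p * N)))))]
    have hterm : ∀ q, ww q * exp (-((m - 1) * (nn q * (t₀ / (p * N))))) =
        L q.1.1 * nc p q.2 * exp (-(m * tt q)) := by
      intro q
      rw [← htn q]
      simp only [ww]
      rw [mul_assoc, ← exp_add]
      congr 2; ring
    simp_rw [hterm]
    rw [Fintype.sum_prod_type, Fintype.sum_prod_type]
    -- exact value of a piece
    set a : ℕ → ℕ → ℝ := fun l i => 2 ^ l * t₀ + i * L l with ha
    have hint : ∀ l i, L l * exp (-(m * a l i)) * ∫ s in (0:ℝ)..1, exp (-(m * L l * s)) =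
        exp (-(m * a l i)) / m - exp (-(m * a l (i + 1))) / m := by
      intro l i
      have hz : 0 < m * L l := by simp only [hL]; positivity
      have := intervalIntegral.integral_eq_sub_of_hasDerivAt
        (f := fun s => -exp (-(m * L l * s)) / (m * L l))
        (f' := fun s => exp (-(m * L l * s))) (a := (0:ℝ)) (b := 1) (by
          intro s _
          have h := ((((hasDerivAt_id' s).const_mul (m * L l)).fun_neg.exp).fun_neg).div_const (m * L l)
          have hz' : (m * L l) ≠ 0 := hz.ne'
          refine h.congr_deriv ?_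
          field_simp
          exact div_self fun h0 => by simp [h0] at hz) (by
          exact (by fun_prop : Continuous fun s => exp (-(m * L l * s))).intervalIntegrable _ _)
      rw [this]
      have : exp (-(m * a l (i + 1))) = exp (-(m * a l i)) * exp (-(m * L l)) := by
        rw [← exp_add]; congr 1; simp only [ha]; push_cast; ring
      rw [this]
      have hL1 : L l ≠ 0 := by intro h0; rw [h0] at hz; simp at hz
      simp only [mul_one, mul_zero, neg_zero, exp_zero]
      field_simp
      ring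
    have hpiece : ∀ (l : Fin b) (i : Fin N),
        |(exp (-(m * a l i)) / m - exp (-(m * a l (i + 1))) / m) -
          ∑ r : Fin p, L l * nc p r * exp (-(m * tt ((l, i), r)))| ≤
          C₁ * (p + 1).factorial * (1 / (N:ℝ)) ^ p / N := by
      intro l i
      rw [← hint]
      have hs : ∑ r : Fin p, L l * nc p r * exp (-(m * tt ((l, i), r))) =
          L l * exp (-(m * a l i)) * ∑ r, nc p r * exp (-(m * L l * node p r)) := by
        rw [Finset.mul_sum]
        refine Finset.sum_congr rfl fun r _ => ?_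
        have : exp (-(m * tt ((l, i), r))) = exp (-(m * a l i)) * exp (-(m * L l * node p r)) := by
          rw [← exp_add]; congr 1; simp only [tt, ha]; ring
        rw [this]; ring
      have hL0 : 0 ≤ L l := by simp only [hL]; positivity
      rw [hs, ← mul_sub, abs_mul, abs_of_nonneg (by positivity : 0 ≤ L l * exp (-(m * a l i)))]
      refine (mul_le_mul_of_nonneg_left (herr _ (by positivity)) (by positivity)).trans ?_
      set y : ℝ := m * (2 ^ (l:ℕ) * t₀) with hy
      have hy0 : 0 ≤ y := by positivity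
      have h1 : exp (-(m * a l i)) ≤ exp (-y) := by
        apply exp_le_exp.2
        simp only [ha, hy]
        have : 0 ≤ m * ((i:ℝ) * L l) := by positivity
        linarith
      calc L l * exp (-(m * a l i)) * (C₁ * (m * L l) ^ p)
          ≤ L l * exp (-y) * (C₁ * (m * L l) ^ p) := by gcongr
        _ = C₁ * (y ^ (p + 1) * exp (-y)) * (1 / (N:ℝ)) ^ p / N / m := by
            simp only [hL, hy]
            rw [← mul_div_assoc, div_pow, div_pow, one_pow, pow_succ]
            field_simp
        _ ≤ C₁ * (p + 1).factorial * (1 / (N:ℝ)) ^ p / N := by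
            refine (div_le_self (by positivity) hm).trans ?_
            gcongr
            exact pow_mul_exp_neg_le _ hy0
    have hblock : ∀ l : Fin b, ∑ i : Fin N, (exp (-(m * a l i)) / m - exp (-(m * a l (i + 1))) / m)
        = exp (-(m * (2 ^ (l:ℕ) * t₀))) / m - exp (-(m * (2 ^ ((l:ℕ) + 1) * t₀))) / m := by
      intro l
      rw [Fin.sum_univ_eq_sum_range (fun i => exp (-(m * a l i)) / m - exp (-(m * a l (i + 1))) / m),
        Finset.sum_range_sub']
      simp only [ha, hL, Nat.cast_zero, zero_mul, add_zero]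
      rw [pow_succ]
      congr 4
      field_simp
      ring
    have htot : ∑ l : Fin b, ∑ i : Fin N, (exp (-(m * a l i)) / m - exp (-(m * a l (i + 1))) / m) =
        exp (-(m * t₀)) / m - exp (-(m * (2 ^ b * t₀))) / m := by
      simp_rw [hblock]
      rw [Fin.sum_univ_eq_sum_range
        (fun l => exp (-(m * (2 ^ l * t₀))) / m - exp (-(m * (2 ^ (l + 1) * t₀))) / m),
        Finset.sum_range_sub' (fun l => exp (-(m * (2 ^ l * t₀))) / m)]
      simp
    have htail : exp (-(m * (2 ^ b * t₀))) / m ≤ exp (-(t₀ * 2 ^ b)) := by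
      refine (div_le_self (by positivity) hm).trans (exp_le_exp.2 ?_)
      nlinarith [mul_pos (pow_pos (by norm_num : (0:ℝ) < 2) b) ht₀]
    have hmain : |(exp (-(m * t₀)) / m - exp (-(m * (2 ^ b * t₀))) / m) -
        ∑ l : Fin b, ∑ i : Fin N, ∑ r : Fin p, L l * nc p r * exp (-(m * tt ((l, i), r)))| ≤
        b * (C₁ * (p + 1).factorial * (1 / (N:ℝ)) ^ p) := by
      rw [← htot, ← Finset.sum_sub_distrib]
      refine (Finset.abs_sum_le_sum_abs _ _).trans ?_
      calc _ ≤ ∑ _l : Fin b, C₁ * (p + 1).factorial * (1 / (N:ℝ)) ^ p := by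
            refine Finset.sum_le_sum fun l _ => ?_
            rw [← Finset.sum_sub_distrib]
            refine (Finset.abs_sum_le_sum_abs _ _).trans ?_
            refine (Finset.sum_le_sum fun i _ => hpiece l i).trans ?_
            simp only [Finset.sum_const, Finset.card_univ, Fintype.card_fin, nsmul_eq_mul]
            rw [mul_div_cancel₀ _ hN'.ne']
        _ = _ := by simp
    have h0 : 0 ≤ exp (-(m * (2 ^ b * t₀))) / m := by positivity
    rw [abs_le] at hmain ⊢
    have hX : 0 ≤ (b:ℝ) * (1 / (N:ℝ)) ^ p := by positivity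
    have hF : 0 ≤ C₁ * ((p + 1).factorial : ℝ) := by positivity
    have he := exp_pos (-(t₀ * 2 ^ b))
    constructor <;> nlinarith [mul_nonneg hA0 he.le, mul_nonneg hF he.le, mul_nonneg hA0 hX]

end Vale.Agent.P347.Quarter.Quad
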